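import Mathlib
import Vale.Agent.P090.Defs
import Vale.Agent.P090.Glue

set_option autoImplicit false

/-!
# P090: a uniformly discrete metric space whose Lipschitz-free space fails the BAP

The question Q1 of P090 has a negative answer: there is a countable uniformly discrete metric
space `M` such that the Lipschitz-free space `F(M)` fails the bounded approximation property.
-/

namespace Vale.Agent.Results.P090.Disproof

open Vale.Agent.P090

theorem result : ∃ (M : Type) (_ : MetricSpace M), Nonempty M ∧ Countable M ∧
    UniformlyDiscrete M ∧ ∀ o : M, ¬ HasBAP (freeSpace M o) :=
  ⟨Big, inferInstance, ⟨inc 0 (Sp.hub fun _ => false)⟩, inferInstance, uniformlyDiscrete_Big,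
    not_hasBAP_Big⟩

end Vale.Agent.Results.P090.Disproof
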